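import Vale.Agent.P016.FE.KG
import Vale.Agent.P016.FE.G3
import Vale.Agent.P016.FE.U
import Vale.Agent.P016.FE.L
import Vale.Agent.P016.FE.CP
import Vale.Agent.P016.FE.F
import Vale.Agent.P016.FE.A
import Vale.Agent.P016.FE.I
import Vale.Agent.P016.FE.D
import Vale.Agent.P016.FE.P
import Vale.Agent.P016.FE.NS
import Vale.Agent.P016.FE.PzL
import Vale.Agent.P016.FE.Q

namespace Vale.Agent.Results.P016.FewExceptions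

open Vale.Agent.P016 Vale.Agent.P016.FE

open Classical in
theorem result :
    -- (1) few exceptions among the bases `m l`, `l` prime
    (∃ c C : ℝ, 0 < c ∧ 0 < C ∧ ∀ A : ℝ, 0 < A → ∃ x₀ : ℕ, ∀ x : ℕ, x₀ ≤ x →
      ∀ s : ℝ, 1 ≤ s → s ≤ √(Real.log x) → ∀ m : ℤ, m ≠ 0 → |(m : ℝ)| ≤ (Real.log x) ^ A →
      (((Finset.range (⌊(Real.log x) ^ A⌋₊ + 1)).filter (fun l : ℕ => l.Prime ∧
        ¬ (l : ℤ) ∣ m ∧
        (artinCount (m * l) x : ℝ) < c * s * (x / (Real.log x) ^ 2))).card : ℝ) ≤ C * s) ∧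
    -- (2) almost all integers, in arbitrarily slowly growing ranges
    (∀ δ A : ℝ, 0 < δ → 0 < A → ∃ c : ℝ, 0 < c ∧ ∃ y₀ x₀ : ℕ, ∀ x : ℕ, x₀ ≤ x →
      ∀ y : ℕ, y₀ ≤ y → (y : ℝ) ≤ (Real.log x) ^ A →
      (((Finset.Icc (-(y : ℤ)) (y : ℤ)).filter (fun a : ℤ =>
        (artinCount a x : ℝ) <
          c * min ((y : ℝ) ^ c) √(Real.log x) * (x / (Real.log x) ^ 2))).card : ℝ) ≤ δ * y) ∧
    -- (3) polylogarithmic exceptional set for prime bases up to `x^A`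
    (∃ c : ℝ, 0 < c ∧ ∀ A : ℝ, 0 < A → ∃ C : ℝ, 0 < C ∧ ∃ x₀ : ℕ, ∀ x : ℕ, x₀ ≤ x →
      (((Finset.range (⌊(x : ℝ) ^ A⌋₊ + 1)).filter (fun l : ℕ => l.Prime ∧
        (artinCount l x : ℝ) < c * (x / (Real.log x) ^ (3 / 2 : ℝ)))).card : ℝ) ≤
        (Real.log x) ^ C) ∧
    -- (4) beyond `x / L^(3/2)`: exceptional sets between `exp (C √L)` and `x ^ (C / log L)`
    (∃ c C : ℝ, 0 < c ∧ 0 < C ∧ ∀ A : ℝ, 0 < A → ∃ x₀ : ℕ, ∀ x : ℕ, x₀ ≤ x →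
      ∀ s : ℝ, √(Real.log x) ≤ s → s ≤ Real.log x / Real.log (Real.log x) →
      (((Finset.range (⌊(x : ℝ) ^ A⌋₊ + 1)).filter (fun l : ℕ => l.Prime ∧
        (artinCount l x : ℝ) < c * s * (x / (Real.log x) ^ 2))).card : ℝ) ≤
        Real.exp (C * s)) ∧
    -- (5) all `x` in a long range at once
    (∀ A ε : ℝ, 0 < A → 0 < ε → ε < 1 → ∃ C : ℝ, 0 < C ∧ ∃ x₀ : ℕ,
      ∀ X₀ X : ℕ, x₀ ≤ X₀ → X₀ ≤ X →
      (((Finset.range (⌊(Real.log X₀) ^ A⌋₊ + 1)).filter (fun l : ℕ => l.Prime ∧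
        ∃ x : ℕ, X₀ ≤ x ∧ x ≤ X ∧ (artinCount l x : ℝ) < (x : ℝ) ^ (1 - ε))).card : ℝ) ≤
        C * (1 + Real.log (Real.log X / Real.log X₀))) ∧
    -- (6) fixed prime bases
    (∃ C : ℝ, 0 < C ∧ ∀ M δ : ℝ, 1 ≤ M → 0 < δ → δ ≤ 1 →
      ∀ S : Finset ℕ, (∀ l ∈ S, l.Prime ∧ ∃ J₀ : ℕ, ∀ J : ℕ, J₀ ≤ J →
        δ * J ≤ (((Finset.range J).filter (fun j : ℕ =>
          (artinCount l (2 ^ j) : ℝ) < M * (2 ^ j / (j : ℝ) ^ 2))).card : ℝ)) →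
      (S.card : ℝ) ≤ C * M / δ) :=
  have hL := Vale.Agent.P016.FE.l
  have hCP := cp k gm u
  have hQ := Vale.Agent.P016.FE.q
  have hF := few hCP hL
  ⟨hF, int hF, poly hCP hL hQ, NS.nears k gm3 u pz hQ, allx hF, dens hF⟩

end Vale.Agent.Results.P016.FewExceptions
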