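import Vale.Agent.P016.Bdl.B2
import Vale.Agent.P016.FE.KG
import Vale.Agent.P016.FE.G3
import Vale.Agent.P016.FE.U
import Vale.Agent.P016.FE.L
import Vale.Agent.P016.FE.CP
import Vale.Agent.P016.FE.F
import Vale.Agent.P016.FE.A
import Vale.Agent.P016.FE.I
import Vale.Agent.P016.FE.D
import Vale.Agent.P016.FE.P
import Vale.Agent.P016.FE.NS
import Vale.Agent.P016.FE.PzL
import Vale.Agent.P016.FE.Q
import Vale.Agent.P016.H421.Defs

namespace Vale.Agent.Results.P016.FewExceptionsWithAverages

open Vale.Agent.P016.H421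

theorem result :
    -- asymptotic formula for almost all bases, one `x` at a time
    (AlmostAllIntegers ∧ AlmostAllIntegersLogSaving ∧ AlmostAllPrimeBases ∧
      AlmostAllLargeFactor) ∧
    -- asymptotic formula for almost all bases, all `x` at once
    (AllXIntegers ∧ AllXPrimeBases ∧ AllXLargeFactor) ∧
    -- lower bounds with very few exceptional bases
    (FewBases ∧ SlowRanges ∧ PolylogExceptions ∧ NearDensity ∧ LongRanges) ∧
    -- fixed prime bases
    FixedBases := by
  have hL := Vale.Agent.P016.FE.l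
  have hCP := Vale.Agent.P016.FE.cp Vale.Agent.P016.FE.k Vale.Agent.P016.FE.gm
    Vale.Agent.P016.FE.u
  have hQ := Vale.Agent.P016.FE.q
  have hF := Vale.Agent.P016.FE.few hCP hL
  exact ⟨⟨Vale.Agent.P016.excA, Vale.Agent.P016.excM,
      fun κ δ D hκ hδ hD => Vale.Agent.P016.primeBases κ δ D hκ hδ hD,
      fun κ δ D hκ hδ hD => Vale.Agent.P016.intBases κ δ D hκ hδ hD⟩,
    ⟨Vale.Agent.P016.unif_almost_const, Vale.Agent.P016.unif_primes,
      Vale.Agent.P016.unif_int⟩,
    ⟨hF, Vale.Agent.P016.FE.int hF, Vale.Agent.P016.FE.poly hCP hL hQ,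
      Vale.Agent.P016.FE.NS.nears Vale.Agent.P016.FE.k Vale.Agent.P016.FE.gm3
        Vale.Agent.P016.FE.u Vale.Agent.P016.FE.pz hQ,
      Vale.Agent.P016.FE.allx hF⟩,
    Vale.Agent.P016.FE.dens hF⟩

end Vale.Agent.Results.P016.FewExceptionsWithAverages
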